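import Vale.Agent.P176.MathlibUsed

/-! The official definition for P176. -/

namespace Vale.Agent.P176

open CategoryTheory

universe u

/-- The little finitistic dimension of a ring `A`: the supremum of the projective dimensions of
the finitely generated left `A`-modules of finite projective dimension (Mathlib's
`projectiveDimension`, with value `⊥` for the zero module and `⊤` for infinite dimension). -/
noncomputable def findim (A : Type u) [Ring A] : WithBot ℕ∞ :=
  ⨆ (M : ModuleCat.{u} A) (_ : Module.Finite A M) (_ : projectiveDimension M ≠ ⊤),
    projectiveDimension M

end Vale.Agent.P176
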