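import Mathlib.Algebra.Category.ModuleCat.Projective
import Mathlib.Algebra.Homology.ShortComplex.ModuleCat
import Mathlib.Algebra.Module.StablyFree.Basic
import Mathlib.Algebra.Module.Torsion.Prod
import Mathlib.Algebra.Order.Ring.Star
import Mathlib.CategoryTheory.Abelian.Projective.Dimension
import Mathlib.Computability.Reduce
import Mathlib.Data.Int.Star
import Mathlib.NumberTheory.Dioph
import Mathlib.Order.CompletePartialOrder
import Mathlib.RingTheory.Etale.Weakly
import Mathlib.RingTheory.Flat.TorsionFree
import Mathlib.RingTheory.Henselian
import Mathlib.RingTheory.PicardGroup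
import Mathlib.RingTheory.PowerSeries.Basic
import Mathlib.RingTheory.RegularLocalRing.Defs
import Mathlib.RingTheory.SimpleRing.Principal
import Mathlib.RingTheory.TotallySplit
import Mathlib.Tactic

/-! The part of Mathlib that the development of this folder uses. -/
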